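import Vale.Agent.P317.MathlibUsed
import Vale.Agent.P317.Prog
import Vale.Agent.P317.Bdl.B8
import Vale.Agent.P317.Bdl.B6

namespace Vale.Agent.Results.P317.Fpras

open Vale.Agent.P317.Small

/-- A fully polynomial randomised approximation scheme, as a program of a small language with
registers for numbers and sets, for the number of common bases of two arbitrary matroids of equal
rank given by independence oracles. The output is the quotient of the number registers 3 and 4. -/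
theorem result :
    ∃ (c : Prog) (d : ℕ), ∀ (n : ℕ) (M₁ M₂ : Matroid (Fin n)),
      M₁.E = Set.univ → M₂.E = Set.univ → M₁.eRank = M₂.eRank →
      ∀ ε δ : ℝ, 0 < ε → ε < 1 → 0 < δ → δ < 1 →
      ∀ e l N : ℕ, e = ⌈1 / ε⌉₊ → l = ⌈Real.logb 2 (1 / δ)⌉₊ →
        N = Nat.card {B : Set (Fin n) // M₁.IsBase B ∧ M₂.IsBase B} →
        (run (oracles M₁ M₂) c (input n e l)).prob (fun s => s.time ≤ (n + e + l + 2) ^ d) = 1 ∧
        1 - δ ≤ (run (oracles M₁ M₂) c (input n e l)).prob (fun s => 0 < s.num 4 ∧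
          (1 - ε) * N ≤ (s.num 3 : ℝ) / s.num 4 ∧ (s.num 3 : ℝ) / s.num 4 ≤ (1 + ε) * N) := by
  refine ⟨cvC Vale.Agent.P317.Alg.prog, 241, ?_⟩
  intro n M₁ M₂ _ _ hr ε δ hε _ hδ _ e l N he hl hN
  have he' := Vale.Agent.P317.Alg.eps_ok hε
  rw [← he] at he'
  have hδ' := Vale.Agent.P317.Alg.delta_ok hδ
  rw [← hl] at hδ'
  obtain ⟨h1, h2⟩ := Vale.Agent.P317.Alg.prog_spec n M₁ M₂ hr e l he'.1
  have h0 : run (oracles M₁ M₂) (cvC Vale.Agent.P317.Alg.prog) (input n e l) =
      cvR cvS (Vale.Agent.P317.run (Vale.Agent.P317.oracles M₁ M₂) Vale.Agent.P317.Alg.prog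
        (Vale.Agent.P317.input n e l)) := by
    have e1 : oracles M₁ M₂ = Vale.Agent.P317.oracles M₁ M₂ := rfl
    have e2 : input n e l = cvS (Vale.Agent.P317.input n e l) := rfl
    rw [e1, e2, cv_run]
  rw [h0]
  refine ⟨prob_cv_one (f := cvS) (fun s hs => hs) h1, ?_⟩
  rw [← hN] at h2
  have h3 : 1 - δ ≤ 1 - (1 / 2) ^ l := by linarith
  refine h3.trans (h2.trans ?_)
  exact prob_cv (f := cvS) (fun s h4 => ⟨h4.1, Vale.Agent.P317.Alg.good_interval he'.2 h4.2⟩) _

end Vale.Agent.Results.P317.Fpras
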