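import Vale.Agent.P317.MathlibUsed
import Vale.Agent.P317.T.Mach
import Vale.Agent.P317.Bdl.B8

namespace Vale.Agent.Results.P317.FprasTM

open Vale.Agent.P317.TM

/-- A fully polynomial randomised approximation scheme for the number of common bases of two
arbitrary matroids of equal rank given by independence oracles. -/
theorem result :
    ∃ A : Input → Action,
      (∃ M : Turing.TM2ComputableInPolyTime Input.code Action.code A,
        ∀ k, Finite (M.tm.Γ k)) ∧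
      ∃ d : ℕ, ∀ (n : ℕ) (M₁ M₂ : Matroid (Fin n)),
        M₁.E = Set.univ → M₂.E = Set.univ → M₁.eRank = M₂.eRank →
        ∀ ε δ : ℝ, 0 < ε → ε < 1 → 0 < δ → δ < 1 →
        ∀ e l T N : ℕ, e = ⌈1 / ε⌉₊ → l = ⌈Real.logb 2 (1 / δ)⌉₊ → T = (n + e + l + 2) ^ d →
          N = Nat.card {B : Set (Fin n) // M₁.IsBase B ∧ M₂.IsBase B} →
          (∀ ρ : Fin T → Bool, ∃ a, Outputs A M₁ M₂ e l (List.ofFn ρ) T a) ∧
          (1 - δ) * 2 ^ T ≤ Nat.card {ρ : Fin T → Bool //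
            ∃ a : ℕ, Outputs A M₁ M₂ e l (List.ofFn ρ) T a ∧
              (1 - ε) * N ≤ a ∧ a ≤ (1 + ε) * N} := by
  obtain ⟨A, h1, d, h2⟩ := Vale.Agent.P317.T.machine_of_program Vale.Agent.P317.Alg.prog 241
    fun n M₁ M₂ _ _ hr e l he => Vale.Agent.P317.Alg.prog_spec n M₁ M₂ hr e l he
  refine ⟨A, h1, d, ?_⟩
  intro n M₁ M₂ e1 e2 e3 ε δ hε hε' hδ hδ' e l T N he hl hT hN
  have h3 := h2 n M₁ M₂ e1 e2 e3 ε δ hε hε' hδ hδ' e l T he hl hT
  have h4 : Vale.Agent.P317.T.numCommon M₁ M₂ = N := hN.symm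
  rw [h4] at h3
  exact h3

end Vale.Agent.Results.P317.FprasTM
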